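import Mathlib

/-! # P058: a real solution of a rational linear system is a convex combination of nearby rational
solutions

Proof: let `t_1, ..., t_n` be a basis over `ℚ` of the `ℚ`-span of the coordinates of `p₀`, so that
`p₀ = ∑ t_s P_s` with `P_s` rational; each `P_s` solves the system since the `t_s` are independent
over `ℚ`. Choose rational `t'_s` close to `t_s`, `p' = ∑ t'_s P_s`, `δ_s = t_s - t'_s`, and a small
rational `ε > 0` with `n |δ_s| ≤ ε`. Put `p_s = p' + sign(δ_s) ε P_s` and `μ_s = |δ_s| / ε`; then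
`p₀ = ∑ μ_s p_s + (1 - ∑ μ_s) p'`, a convex combination of rational solutions, all within any
prescribed distance of `p₀`. -/

namespace Vale.Agent.Lib.P058.RatDep

/-- Rational coordinates of a real vector over a rational basis of the span of its coordinates. -/
theorem exists_rat_basis {M κ : Type} [Fintype M] [Fintype κ] (e : κ → M → ℚ) (p₀ : M → ℝ)
    (he : ∀ i, ∑ m, (e i m : ℝ) * p₀ m = 0) :
    ∃ (n : ℕ) (P : Fin n → M → ℚ) (t : Fin n → ℝ),
      (∀ m, p₀ m = ∑ s, t s * (P s m : ℝ)) ∧ (∀ s i, ∑ m, e i m * P s m = 0) := by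
  classical
  let W : Submodule ℚ ℝ := Submodule.span ℚ (Set.range p₀)
  have hWfin : Module.Finite ℚ W := Module.Finite.span_of_finite ℚ (Set.finite_range p₀)
  let b := Module.finBasis ℚ W
  let v : M → W := fun m => ⟨p₀ m, Submodule.subset_span ⟨m, rfl⟩⟩
  refine ⟨_, fun s m => b.repr (v m) s, fun s => ((b s : W) : ℝ), ?_, ?_⟩
  · intro m
    have h1 := b.sum_repr (v m)
    have h2 := congrArg (Subtype.val) h1
    simp only [Submodule.coe_sum, Submodule.coe_smul, Rat.smul_def] at h2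
    have h3 : ((v m : W) : ℝ) = p₀ m := rfl
    rw [← h3, ← h2]
    refine Finset.sum_congr rfl fun s _ => ?_
    ring
  · intro s i
    have h0 : ∑ m, e i m • v m = 0 := by
      apply Subtype.ext
      simp only [Submodule.coe_sum, Submodule.coe_smul, Rat.smul_def, Submodule.coe_zero]
      exact he i
    have h1 := congrArg (fun z => b.repr z s) h0
    simpa [map_sum, Finsupp.finsetSum_apply, Finsupp.smul_apply] using h1

/-- Convex combination of rational solutions close to `p₀`. -/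
theorem exists_rat_convex {M κ : Type} [Fintype M] [Fintype κ] (e : κ → M → ℚ) (p₀ : M → ℝ)
    (he : ∀ i, ∑ m, (e i m : ℝ) * p₀ m = 0) {η : ℝ} (hη : 0 < η) :
    ∃ (n : ℕ) (c : Fin n → ℝ) (p : Fin n → M → ℚ),
      (∀ s, 0 ≤ c s) ∧ (∀ m, ∑ s, c s * (p s m : ℝ) = p₀ m) ∧
      (∀ s i, ∑ m, e i m * p s m = 0) ∧ (∀ s m, |(p s m : ℝ) - p₀ m| < η) := by
  classical
  obtain ⟨n, P, t, hp, hP⟩ := exists_rat_basis e p₀ he
  -- a bound for the coordinates
  obtain ⟨A, hA⟩ : ∃ A : ℝ, A = 1 + ∑ s, ∑ m, |(P s m : ℝ)| := ⟨_, rfl⟩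
  have hA1 : 1 ≤ A := by
    rw [hA]
    have : 0 ≤ ∑ s, ∑ m, |(P s m : ℝ)| :=
      Finset.sum_nonneg fun _ _ => Finset.sum_nonneg fun _ _ => abs_nonneg _
    linarith
  have hA0 : 0 < A := by linarith
  have hPA : ∀ s m, |(P s m : ℝ)| ≤ A := by
    intro s m
    have h1 : |(P s m : ℝ)| ≤ ∑ m, |(P s m : ℝ)| :=
      Finset.single_le_sum (f := fun m => |(P s m : ℝ)|) (fun _ _ => abs_nonneg _) (Finset.mem_univ m)
    have h2 : ∑ m, |(P s m : ℝ)| ≤ ∑ s, ∑ m, |(P s m : ℝ)| :=
      Finset.single_le_sum (f := fun s => ∑ m, |(P s m : ℝ)|)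
        (fun _ _ => Finset.sum_nonneg fun _ _ => abs_nonneg _) (Finset.mem_univ s)
    rw [hA]
    linarith
  have hsumA : ∀ m, ∑ s, |(P s m : ℝ)| ≤ A := by
    intro m
    have h1 : ∑ s, |(P s m : ℝ)| ≤ ∑ s, ∑ m, |(P s m : ℝ)| :=
      Finset.sum_le_sum fun s _ =>
        Finset.single_le_sum (f := fun m => |(P s m : ℝ)|) (fun _ _ => abs_nonneg _) (Finset.mem_univ m)
    rw [hA]
    linarith
  -- the small parameters
  have hη2 : 0 < η / (2 * A) := by positivity
  obtain ⟨ε, hε0, hε1⟩ := exists_rat_btwn hη2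
  have hε0' : (0 : ℝ) < (ε : ℝ) := hε0
  obtain ⟨θ, hθ⟩ : ∃ θ : ℝ, θ = min ((ε : ℝ) / (n + 1)) (η / (4 * A)) := ⟨_, rfl⟩
  have hθ0 : 0 < θ := by
    rw [hθ]
    exact lt_min (by positivity) (by positivity)
  have hθ1 : θ ≤ (ε : ℝ) / (n + 1) := by
    rw [hθ]
    exact min_le_left _ _
  have hθ2 : θ ≤ η / (4 * A) := by
    rw [hθ]
    exact min_le_right _ _
  have hq : ∀ s, ∃ q : ℚ, |t s - (q : ℝ)| < θ := by
    intro s
    obtain ⟨q, h1, h2⟩ := exists_rat_btwn (show t s - θ < t s by linarith)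
    refine ⟨q, ?_⟩
    rw [abs_lt]
    constructor <;> linarith
  choose q hq using hq
  -- the base point
  let p' : M → ℚ := fun m => ∑ s, q s * P s m
  let σ : Fin n → ℚ := fun s => if 0 ≤ t s - (q s : ℝ) then 1 else -1
  have hσ : ∀ s, (σ s : ℝ) * (ε : ℝ) * (|t s - (q s : ℝ)| / (ε : ℝ)) = t s - (q s : ℝ) := by
    intro s
    simp only [σ]
    split_ifs with h
    · rw [abs_of_nonneg h]
      push_cast
      field_simp
    · rw [abs_of_neg (not_le.mp h)]
      push_cast
      field_simp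
  have hσabs : ∀ s, |(σ s : ℝ)| = 1 := by
    intro s
    simp only [σ]
    split_ifs <;> simp
  have hp'sol : ∀ i, ∑ m, e i m * p' m = 0 := by
    intro i
    simp only [p', Finset.mul_sum]
    rw [Finset.sum_comm]
    refine Finset.sum_eq_zero fun s _ => ?_
    have h := hP s i
    calc ∑ m, e i m * (q s * P s m) = q s * ∑ m, e i m * P s m := by
          rw [Finset.mul_sum]
          exact Finset.sum_congr rfl fun m _ => by ring
      _ = 0 := by rw [h, mul_zero]
  have hp'near : ∀ m, |(p' m : ℝ) - p₀ m| < η / 2 := by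
    intro m
    have h1 : (p' m : ℝ) - p₀ m = ∑ s, ((q s : ℝ) - t s) * (P s m : ℝ) := by
      rw [hp m]
      simp only [p']
      push_cast
      rw [← Finset.sum_sub_distrib]
      exact Finset.sum_congr rfl fun s _ => by ring
    rw [h1]
    have h2 : |∑ s, ((q s : ℝ) - t s) * (P s m : ℝ)| ≤ θ * A := by
      calc |∑ s, ((q s : ℝ) - t s) * (P s m : ℝ)|
          ≤ ∑ s, |((q s : ℝ) - t s) * (P s m : ℝ)| := Finset.abs_sum_le_sum_abs _ _
        _ ≤ ∑ s, θ * |(P s m : ℝ)| := by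
            refine Finset.sum_le_sum fun s _ => ?_
            rw [abs_mul, abs_sub_comm]
            exact mul_le_mul_of_nonneg_right (hq s).le (abs_nonneg _)
        _ = θ * ∑ s, |(P s m : ℝ)| := by rw [Finset.mul_sum]
        _ ≤ θ * A := mul_le_mul_of_nonneg_left (hsumA m) hθ0.le
    have h3 : θ * A ≤ η / 4 := by
      calc θ * A ≤ η / (4 * A) * A := mul_le_mul_of_nonneg_right hθ2 hA0.le
        _ = η / 4 := by field_simp
    linarith
  have hμ : ∀ s, |t s - (q s : ℝ)| / (ε : ℝ) ≤ 1 / ((n : ℝ) + 1) := by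
    intro s
    rw [div_le_iff₀ hε0']
    have h1 := (hq s).le.trans hθ1
    calc |t s - (q s : ℝ)| ≤ (ε : ℝ) / (n + 1) := h1
      _ = 1 / ((n : ℝ) + 1) * (ε : ℝ) := by ring
  have hμsum : ∑ s, |t s - (q s : ℝ)| / (ε : ℝ) ≤ 1 := by
    calc ∑ s, |t s - (q s : ℝ)| / (ε : ℝ) ≤ ∑ _s : Fin n, 1 / ((n : ℝ) + 1) :=
          Finset.sum_le_sum fun s _ => hμ s
      _ = (n : ℝ) / ((n : ℝ) + 1) := by
          simp only [Finset.sum_const, Finset.card_univ, Fintype.card_fin, nsmul_eq_mul]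
          ring
      _ ≤ 1 := by
          rw [div_le_one (by positivity)]
          linarith
  refine ⟨n + 1, Fin.cons (1 - ∑ s, |t s - (q s : ℝ)| / (ε : ℝ)) (fun s => |t s - (q s : ℝ)| / (ε : ℝ)),
    Fin.cons p' (fun s m => p' m + σ s * ε * P s m), ?_, ?_, ?_, ?_⟩
  · intro s
    refine Fin.cases ?_ (fun s => ?_) s
    · simp only [Fin.cons_zero]
      linarith
    · simp only [Fin.cons_succ]
      positivity
  · intro m
    rw [Fin.sum_univ_succ]
    simp only [Fin.cons_zero, Fin.cons_succ]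
    have h1 : ∀ s, |t s - (q s : ℝ)| / (ε : ℝ) * (((p' m + σ s * ε * P s m : ℚ)) : ℝ)
        = |t s - (q s : ℝ)| / (ε : ℝ) * (p' m : ℝ) + (t s - (q s : ℝ)) * (P s m : ℝ) := by
      intro s
      push_cast
      calc |t s - (q s : ℝ)| / (ε : ℝ) * ((p' m : ℝ) + (σ s : ℝ) * (ε : ℝ) * (P s m : ℝ))
          = |t s - (q s : ℝ)| / (ε : ℝ) * (p' m : ℝ)
            + ((σ s : ℝ) * (ε : ℝ) * (|t s - (q s : ℝ)| / (ε : ℝ))) * (P s m : ℝ) := by ring
        _ = _ := by rw [hσ s]
    rw [Finset.sum_congr rfl fun s _ => h1 s, Finset.sum_add_distrib, ← Finset.sum_mul, hp m]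
    have h2 : (p' m : ℝ) = ∑ s, (q s : ℝ) * (P s m : ℝ) := by
      simp only [p']
      push_cast
      rfl
    have h3 : ∑ s, (t s - (q s : ℝ)) * (P s m : ℝ) = ∑ s, t s * (P s m : ℝ) - (p' m : ℝ) := by
      rw [h2, ← Finset.sum_sub_distrib]
      exact Finset.sum_congr rfl fun s _ => by ring
    rw [h3]
    ring
  · intro s i
    refine Fin.cases ?_ (fun s => ?_) s
    · simp only [Fin.cons_zero]
      exact hp'sol i
    · simp only [Fin.cons_succ]
      have h1 : ∑ m, e i m * (p' m + σ s * ε * P s m)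
          = ∑ m, e i m * p' m + σ s * ε * ∑ m, e i m * P s m := by
        rw [Finset.mul_sum, ← Finset.sum_add_distrib]
        exact Finset.sum_congr rfl fun m _ => by ring
      rw [h1, hp'sol i, hP s i]
      ring
  · intro s m
    refine Fin.cases ?_ (fun s => ?_) s
    · simp only [Fin.cons_zero]
      have := hp'near m
      linarith
    · simp only [Fin.cons_succ]
      have h1 := hp'near m
      have h2 : |((σ s * ε * P s m : ℚ) : ℝ)| < η / 2 := by
        push_cast
        rw [abs_mul, abs_mul, hσabs s, one_mul, abs_of_pos hε0']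
        have h3 : (ε : ℝ) * |(P s m : ℝ)| ≤ (ε : ℝ) * A :=
          mul_le_mul_of_nonneg_left (hPA s m) hε0'.le
        have h4 : (ε : ℝ) * A < η / (2 * A) * A := mul_lt_mul_of_pos_right hε1 hA0
        have h5 : η / (2 * A) * A = η / 2 := by field_simp
        linarith
      have h6 : (((p' m + σ s * ε * P s m : ℚ)) : ℝ) - p₀ m
          = ((p' m : ℝ) - p₀ m) + ((σ s * ε * P s m : ℚ) : ℝ) := by
        push_cast
        ring
      rw [h6]
      calc |((p' m : ℝ) - p₀ m) + ((σ s * ε * P s m : ℚ) : ℝ)|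
          ≤ |(p' m : ℝ) - p₀ m| + |((σ s * ε * P s m : ℚ) : ℝ)| := abs_add_le _ _
        _ < η := by linarith

end Vale.Agent.Lib.P058.RatDep
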