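import Mathlib

/-! # P058: positive definiteness is an open condition

Proof: `v ↦ v ⬝ᵥ G₀ *ᵥ v` attains a positive minimum `c` on the compact unit sphere of the sup norm
of `Fin d → ℝ`; for `|G i j - G₀ i j| < ε` the difference is at most `d² ε ‖v‖²`; take
`ε = c / (d² + 1)`, and use homogeneity. -/

namespace Vale.Agent.Lib.P058.RatDep

theorem exists_nhd_posDef {d : ℕ} (G₀ : Matrix (Fin d) (Fin d) ℝ)
    (hpos : ∀ v : Fin d → ℝ, v ≠ 0 → 0 < v ⬝ᵥ G₀.mulVec v) :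
    ∃ η > 0, ∀ G : Matrix (Fin d) (Fin d) ℝ, (∀ i j, |G i j - G₀ i j| < η) →
      ∀ v : Fin d → ℝ, v ≠ 0 → 0 < v ⬝ᵥ G.mulVec v := by
  classical
  have hunit : ∀ v : Fin d → ℝ, v ≠ 0 → (‖v‖⁻¹ • v) ∈ Metric.sphere (0 : Fin d → ℝ) 1 := by
    intro v hv
    have hn : ‖v‖ ≠ 0 := norm_ne_zero_iff.mpr hv
    simp [norm_smul, hn]
  by_cases hS : (Metric.sphere (0 : Fin d → ℝ) 1).Nonempty
  · have hcomp : IsCompact (Metric.sphere (0 : Fin d → ℝ) 1) := isCompact_sphere _ _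
    have hcont : Continuous fun v : Fin d → ℝ => v ⬝ᵥ G₀.mulVec v := by
      simp only [dotProduct, Matrix.mulVec]
      fun_prop
    obtain ⟨v₀, hv₀, hmin⟩ := hcomp.exists_isMinOn hS hcont.continuousOn
    have hv₀ne : v₀ ≠ 0 := by
      rintro rfl
      simp at hv₀
    have hc : 0 < v₀ ⬝ᵥ G₀.mulVec v₀ := hpos v₀ hv₀ne
    set c : ℝ := v₀ ⬝ᵥ G₀.mulVec v₀ with hcdef
    have hdp : (0 : ℝ) < (d : ℝ) ^ 2 + 1 := by positivity
    refine ⟨c / ((d : ℝ) ^ 2 + 1), by positivity, ?_⟩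
    intro G hG v hv
    set η : ℝ := c / ((d : ℝ) ^ 2 + 1) with hηdef
    have hη : 0 < η := by positivity
    have hnorm : 0 < ‖v‖ := norm_pos_iff.mpr hv
    have hq : c ≤ (‖v‖⁻¹ • v) ⬝ᵥ G₀.mulVec (‖v‖⁻¹ • v) := hmin (hunit v hv)
    have hqv : (‖v‖⁻¹ • v) ⬝ᵥ G₀.mulVec (‖v‖⁻¹ • v)
        = (‖v‖⁻¹) ^ 2 * (v ⬝ᵥ G₀.mulVec v) := by
      rw [Matrix.mulVec_smul, smul_dotProduct, dotProduct_smul]
      simp only [smul_eq_mul]
      ring
    have hlow : c * ‖v‖ ^ 2 ≤ v ⬝ᵥ G₀.mulVec v := by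
      rw [hqv] at hq
      have h2 : 0 < ‖v‖ ^ 2 := by positivity
      calc c * ‖v‖ ^ 2 ≤ ((‖v‖⁻¹) ^ 2 * (v ⬝ᵥ G₀.mulVec v)) * ‖v‖ ^ 2 := by gcongr
        _ = v ⬝ᵥ G₀.mulVec v := by field_simp
    have hexpand : v ⬝ᵥ G.mulVec v - v ⬝ᵥ G₀.mulVec v
        = ∑ i, ∑ j, v i * ((G i j - G₀ i j) * v j) := by
      simp only [dotProduct, Matrix.mulVec, Finset.mul_sum, ← Finset.sum_sub_distrib]
      refine Finset.sum_congr rfl fun i _ => Finset.sum_congr rfl fun j _ => ?_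
      ring
    have hcoord : ∀ i, |v i| ≤ ‖v‖ := fun i => by
      have := norm_le_pi_norm v i
      simpa [Real.norm_eq_abs] using this
    have hentry : ∀ i j, |v i * ((G i j - G₀ i j) * v j)| ≤ η * ‖v‖ ^ 2 := by
      intro i j
      rw [abs_mul, abs_mul]
      have h1 := hcoord i
      have h2 := hcoord j
      have h3 := (hG i j).le
      calc |v i| * (|G i j - G₀ i j| * |v j|) ≤ ‖v‖ * (η * ‖v‖) := by gcongr
        _ = η * ‖v‖ ^ 2 := by ring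
    have hdiff : |v ⬝ᵥ G.mulVec v - v ⬝ᵥ G₀.mulVec v| ≤ (d : ℝ) ^ 2 * (η * ‖v‖ ^ 2) := by
      rw [hexpand]
      calc |∑ i, ∑ j, v i * ((G i j - G₀ i j) * v j)|
          ≤ ∑ i : Fin d, ∑ j : Fin d, |v i * ((G i j - G₀ i j) * v j)| := by
            refine (Finset.abs_sum_le_sum_abs _ _).trans ?_
            exact Finset.sum_le_sum fun i _ => Finset.abs_sum_le_sum_abs _ _
        _ ≤ ∑ _i : Fin d, ∑ _j : Fin d, η * ‖v‖ ^ 2 :=
            Finset.sum_le_sum fun i _ => Finset.sum_le_sum fun j _ => hentry i j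
        _ = (d : ℝ) ^ 2 * (η * ‖v‖ ^ 2) := by
            simp only [Finset.sum_const, Finset.card_univ, Fintype.card_fin, nsmul_eq_mul]
            ring
    have hle := (abs_le.mp hdiff).1
    have hηeq : η * ((d : ℝ) ^ 2 + 1) = c := by
      rw [hηdef]
      field_simp
    have hnv : 0 < ‖v‖ ^ 2 := by positivity
    have hfinal : 0 < η * ‖v‖ ^ 2 := by positivity
    have : v ⬝ᵥ G.mulVec v ≥ η * ‖v‖ ^ 2 := by
      have h5 : c * ‖v‖ ^ 2 = (d : ℝ) ^ 2 * (η * ‖v‖ ^ 2) + η * ‖v‖ ^ 2 := by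
        rw [← hηeq]
        ring
      linarith
    linarith
  · refine ⟨1, one_pos, ?_⟩
    intro G _ v hv
    exact absurd ⟨_, hunit v hv⟩ hS

end Vale.Agent.Lib.P058.RatDep
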