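import Mathlib

/-! # P058: a positive definite rational quadratic form is a sum of squares of rational linear forms

Proof: `QuadraticForm.equivalent_weightedSumSquares` over `ℚ` gives a diagonal form with positive
weights (positive by definiteness), and each positive rational `a / b = a * b / b ^ 2` is a sum of
four rational squares by `Nat.sum_four_squares`. -/

namespace Vale.Agent.Lib.P058.RatDep

/-- Each positive rational is a sum of four rational squares. -/
lemma exists_four_squares (w : ℚ) (hw : 0 < w) : ∃ c : Fin 4 → ℚ, ∑ k, c k ^ 2 = w := by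
  obtain ⟨a, b, c, d, h⟩ := Nat.sum_four_squares (w.num.toNat * w.den)
  have hnum : ((w.num.toNat : ℕ) : ℚ) = (w.num : ℚ) := by
    have : ((w.num.toNat : ℕ) : ℤ) = w.num := Int.toNat_of_nonneg (Rat.num_pos.mpr hw).le
    exact_mod_cast this
  have hden : (w.den : ℚ) ≠ 0 := by exact_mod_cast w.den_ne_zero
  have h' : (a : ℚ) ^ 2 + (b : ℚ) ^ 2 + (c : ℚ) ^ 2 + (d : ℚ) ^ 2 = (w.num : ℚ) * w.den := by
    rw [← hnum]
    exact_mod_cast h
  refine ⟨![(a : ℚ) / w.den, (b : ℚ) / w.den, (c : ℚ) / w.den, (d : ℚ) / w.den], ?_⟩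
  simp only [Fin.sum_univ_four, Matrix.cons_val]
  have e3 : ((a : ℚ) / w.den) ^ 2 + ((b : ℚ) / w.den) ^ 2 + ((c : ℚ) / w.den) ^ 2 +
      ((d : ℚ) / w.den) ^ 2 = ((a : ℚ) ^ 2 + (b : ℚ) ^ 2 + (c : ℚ) ^ 2 + (d : ℚ) ^ 2) / (w.den : ℚ) ^ 2 := by
    simp only [div_pow]
    ring
  rw [e3, h', pow_two, mul_div_mul_right _ _ hden]
  exact Rat.num_div_den w

/-- A positive definite rational symmetric matrix is a Gram matrix over `ℚ`. -/
theorem exists_rat_squares {d : ℕ} (G : Matrix (Fin d) (Fin d) ℚ) (hsym : G.IsSymm)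
    (hpos : ∀ v : Fin d → ℚ, v ≠ 0 → 0 < v ⬝ᵥ G.mulVec v) :
    ∃ (M : ℕ) (T : (Fin d → ℚ) →ₗ[ℚ] (Fin M → ℚ)),
      ∀ v, ∑ j, (T v j) ^ 2 = v ⬝ᵥ G.mulVec v := by
  classical
  let Q : QuadraticForm ℚ (Fin d → ℚ) := Matrix.toQuadraticForm' G
  have hQ : ∀ v, Q v = v ⬝ᵥ G.mulVec v := by
    intro v
    simp [Q, Matrix.toQuadraticForm', Matrix.toLinearMap₂'_apply']
  obtain ⟨w, ⟨f⟩⟩ := QuadraticForm.equivalent_weightedSumSquares Q
  let g : (Fin d → ℚ) ≃ₗ[ℚ] (Fin (Module.finrank ℚ (Fin d → ℚ)) → ℚ) := f.toLinearEquiv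
  have hf : ∀ v, ∑ i, w i * (g v i * g v i) = v ⬝ᵥ G.mulVec v := by
    intro v
    have h1 : QuadraticMap.weightedSumSquares ℚ w (g v) = Q v := f.map_app v
    rw [hQ] at h1
    rw [← h1, QuadraticMap.weightedSumSquares_apply]
    simp [smul_eq_mul]
  have hwpos : ∀ i, 0 < w i := by
    intro i
    have hv : g.symm (Pi.single i 1) ≠ 0 := by
      intro h0
      have h1 := congrArg g h0
      rw [LinearEquiv.apply_symm_apply, map_zero] at h1
      have h2 := congrFun h1 i
      simp at h2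
    have h3 := hpos _ hv
    rw [← hf] at h3
    have h4 : ∀ j, g (g.symm (Pi.single i 1)) j = (Pi.single i 1 : _ → ℚ) j := by
      intro j
      rw [LinearEquiv.apply_symm_apply]
    simp only [h4] at h3
    rw [Finset.sum_eq_single i] at h3
    · simpa using h3
    · intro b _ hb
      simp [Pi.single_eq_of_ne hb]
    · simp
  choose c hc using fun i => exists_four_squares (w i) (hwpos i)
  refine ⟨Module.finrank ℚ (Fin d → ℚ) * 4, LinearMap.pi (fun j =>
    (c (finProdFinEquiv.symm j).1 (finProdFinEquiv.symm j).2) •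
      ((LinearMap.proj (finProdFinEquiv.symm j).1) ∘ₗ g.toLinearMap)), ?_⟩
  intro v
  rw [← hf v, ← Equiv.sum_comp finProdFinEquiv, Fintype.sum_prod_type]
  refine Finset.sum_congr rfl fun i _ => ?_
  rw [← hc i, Finset.sum_mul]
  refine Finset.sum_congr rfl fun k _ => ?_
  simp only [LinearMap.pi_apply, LinearMap.smul_apply, LinearMap.comp_apply, LinearMap.proj_apply,
    Equiv.symm_apply_apply, smul_eq_mul, LinearEquiv.coe_coe]
  ring

end Vale.Agent.Lib.P058.RatDep
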