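import Vale.Agent.Lib.P058.Subtrans

/-! # P058: squared distance functions realized in finite transitive sets

The product of two transitive sets is transitive, so these functions form a convex cone. -/

namespace Vale.Agent.Lib.P058.RatDep

/-- `D` is the squared distance function of a map into a finite transitive set. -/
def Realizable {α : Type} (D : α → α → ℝ) : Prop :=
  ∃ (n : ℕ) (X : Set (EuclideanSpace ℝ (Fin n))) (f : α → EuclideanSpace ℝ (Fin n)),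
    IsTransitiveSet X ∧ (∀ a, f a ∈ X) ∧ ∀ a b, dist (f a) (f b) ^ 2 = D a b

/-- The zero function: the one point set in dimension `0`. -/
theorem Realizable.zero {α : Type} : Realizable (fun _ _ : α => (0 : ℝ)) := by
  refine ⟨0, {0}, fun _ => 0, ⟨Set.finite_singleton _, ?_⟩, fun _ => rfl, fun _ _ => by simp⟩
  rintro x rfl y rfl
  exact ⟨IsometryEquiv.refl _, by rw [Set.image_singleton]; rfl, rfl⟩

/-- Scaling a transitive set. -/
theorem Realizable.smul {α : Type} {D : α → α → ℝ} (h : Realizable D) {c : ℝ} (hc : 0 ≤ c) :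
    Realizable (fun a b => c * D a b) := by
  rcases hc.eq_or_lt with rfl | hc
  · simpa using (Realizable.zero : Realizable (fun _ _ : α => (0 : ℝ)))
  obtain ⟨n, X, f, hX, hf, hd⟩ := h
  have hs : 0 < Real.sqrt c := Real.sqrt_pos.mpr hc
  set s : ℝ := Real.sqrt c with hsdef
  have hss : s ^ 2 = c := Real.sq_sqrt hc.le
  have hs0 : s ≠ 0 := hs.ne'
  refine ⟨n, (fun x => s • x) '' X, fun a => s • f a, ⟨hX.1.image _, ?_⟩,
    fun a => ⟨f a, hf a, rfl⟩, fun a b => ?_⟩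
  · rintro _ ⟨x, hx, rfl⟩ _ ⟨y, hy, rfl⟩
    obtain ⟨φ, himg, hφ⟩ := hX.2 x hx y hy
    let ψ : EuclideanSpace ℝ (Fin n) ≃ᵢ EuclideanSpace ℝ (Fin n) :=
      { toFun := fun u => s • φ (s⁻¹ • u)
        invFun := fun u => s • φ.symm (s⁻¹ • u)
        left_inv := fun u => by simp [smul_smul, hs0]
        right_inv := fun u => by simp [smul_smul, hs0]
        isometry_toFun := Isometry.of_dist_eq fun u v => by
          rw [dist_smul₀, φ.dist_eq, dist_smul₀, norm_inv, ← mul_assoc, mul_inv_cancel₀,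
            one_mul]
          exact norm_ne_zero_iff.mpr hs0 }
    have hψ : ∀ u, ψ (s • u) = s • φ u := fun u => by
      change s • φ (s⁻¹ • s • u) = s • φ u
      rw [smul_smul, inv_mul_cancel₀ hs0, one_smul]
    refine ⟨ψ, ?_, ?_⟩
    · ext z
      constructor
      · rintro ⟨_, ⟨u, hu, rfl⟩, rfl⟩
        refine ⟨φ u, ?_, (hψ u).symm⟩
        rw [← himg]
        exact ⟨u, hu, rfl⟩
      · rintro ⟨u, hu, rfl⟩
        rw [← himg] at hu
        obtain ⟨v, hv, rfl⟩ := hu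
        exact ⟨s • v, ⟨v, hv, rfl⟩, hψ v⟩
    · change ψ (s • x) = s • y
      rw [hψ, hφ]
  · change dist (s • f a) (s • f b) ^ 2 = c * D a b
    rw [dist_smul₀, Real.norm_of_nonneg hs.le, mul_pow, hss, hd]

section Pair

variable {n₁ n₂ : ℕ}

/-- Concatenation of coordinates. -/
noncomputable def pair (x : EuclideanSpace ℝ (Fin n₁)) (y : EuclideanSpace ℝ (Fin n₂)) :
    EuclideanSpace ℝ (Fin (n₁ + n₂)) :=
  WithLp.toLp 2 (Fin.addCases (motive := fun _ => ℝ) (fun i => x i) (fun i => y i))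

/-- First block of coordinates. -/
noncomputable def pfst (z : EuclideanSpace ℝ (Fin (n₁ + n₂))) : EuclideanSpace ℝ (Fin n₁) :=
  WithLp.toLp 2 (fun i => z (Fin.castAdd n₂ i))

/-- Second block of coordinates. -/
noncomputable def psnd (z : EuclideanSpace ℝ (Fin (n₁ + n₂))) : EuclideanSpace ℝ (Fin n₂) :=
  WithLp.toLp 2 (fun i => z (Fin.natAdd n₁ i))

lemma pfst_pair (x : EuclideanSpace ℝ (Fin n₁)) (y : EuclideanSpace ℝ (Fin n₂)) :
    pfst (pair x y) = x := by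
  ext i
  simp [pfst, pair]

lemma psnd_pair (x : EuclideanSpace ℝ (Fin n₁)) (y : EuclideanSpace ℝ (Fin n₂)) :
    psnd (pair x y) = y := by
  ext i
  simp [psnd, pair]

lemma pair_split (z : EuclideanSpace ℝ (Fin (n₁ + n₂))) : pair (pfst z) (psnd z) = z := by
  ext i
  refine Fin.addCases (fun i => ?_) (fun i => ?_) i <;> simp [pfst, psnd, pair]

lemma dist_sq_split (z z' : EuclideanSpace ℝ (Fin (n₁ + n₂))) :
    dist z z' ^ 2 = dist (pfst z) (pfst z') ^ 2 + dist (psnd z) (psnd z') ^ 2 := by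
  rw [EuclideanSpace.dist_eq, EuclideanSpace.dist_eq, EuclideanSpace.dist_eq,
    Real.sq_sqrt (Finset.sum_nonneg fun _ _ => sq_nonneg _),
    Real.sq_sqrt (Finset.sum_nonneg fun _ _ => sq_nonneg _),
    Real.sq_sqrt (Finset.sum_nonneg fun _ _ => sq_nonneg _), Fin.sum_univ_add]
  rfl

/-- The product of two isometries. -/
noncomputable def pairIso (φ₁ : EuclideanSpace ℝ (Fin n₁) ≃ᵢ EuclideanSpace ℝ (Fin n₁))
    (φ₂ : EuclideanSpace ℝ (Fin n₂) ≃ᵢ EuclideanSpace ℝ (Fin n₂)) :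
    EuclideanSpace ℝ (Fin (n₁ + n₂)) ≃ᵢ EuclideanSpace ℝ (Fin (n₁ + n₂)) where
  toFun z := pair (φ₁ (pfst z)) (φ₂ (psnd z))
  invFun z := pair (φ₁.symm (pfst z)) (φ₂.symm (psnd z))
  left_inv z := by simp [pfst_pair, psnd_pair, pair_split]
  right_inv z := by simp [pfst_pair, psnd_pair, pair_split]
  isometry_toFun := Isometry.of_dist_eq fun z z' => by
    refine (sq_eq_sq₀ dist_nonneg dist_nonneg).mp ?_
    rw [dist_sq_split, dist_sq_split z z', pfst_pair, pfst_pair, psnd_pair, psnd_pair, φ₁.dist_eq,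
      φ₂.dist_eq]

lemma pairIso_pair (φ₁ : EuclideanSpace ℝ (Fin n₁) ≃ᵢ EuclideanSpace ℝ (Fin n₁))
    (φ₂ : EuclideanSpace ℝ (Fin n₂) ≃ᵢ EuclideanSpace ℝ (Fin n₂))
    (x : EuclideanSpace ℝ (Fin n₁)) (y : EuclideanSpace ℝ (Fin n₂)) :
    pairIso φ₁ φ₂ (pair x y) = pair (φ₁ x) (φ₂ y) := by
  change pair (φ₁ (pfst (pair x y))) (φ₂ (psnd (pair x y))) = _
  rw [pfst_pair, psnd_pair]

end Pair

/-- The product of two transitive sets, in `Fin (n₁ + n₂)`. -/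
theorem Realizable.add {α : Type} {D₁ D₂ : α → α → ℝ} (h₁ : Realizable D₁) (h₂ : Realizable D₂) :
    Realizable (fun a b => D₁ a b + D₂ a b) := by
  obtain ⟨n₁, X₁, f₁, hX₁, hf₁, hd₁⟩ := h₁
  obtain ⟨n₂, X₂, f₂, hX₂, hf₂, hd₂⟩ := h₂
  refine ⟨n₁ + n₂, (fun p => pair p.1 p.2) '' (X₁ ×ˢ X₂), fun a => pair (f₁ a) (f₂ a),
    ⟨(hX₁.1.prod hX₂.1).image _, ?_⟩, fun a => ⟨(f₁ a, f₂ a), ⟨hf₁ a, hf₂ a⟩, rfl⟩, fun a b => ?_⟩
  · rintro _ ⟨⟨x₁, x₂⟩, ⟨hx₁, hx₂⟩, rfl⟩ _ ⟨⟨y₁, y₂⟩, ⟨hy₁, hy₂⟩, rfl⟩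
    obtain ⟨φ₁, himg₁, hφ₁⟩ := hX₁.2 x₁ hx₁ y₁ hy₁
    obtain ⟨φ₂, himg₂, hφ₂⟩ := hX₂.2 x₂ hx₂ y₂ hy₂
    refine ⟨pairIso φ₁ φ₂, ?_, ?_⟩
    · ext z
      constructor
      · rintro ⟨_, ⟨⟨u₁, u₂⟩, ⟨hu₁, hu₂⟩, rfl⟩, rfl⟩
        refine ⟨(φ₁ u₁, φ₂ u₂), ⟨?_, ?_⟩, (pairIso_pair φ₁ φ₂ u₁ u₂).symm⟩
        · change φ₁ u₁ ∈ X₁
          rw [← himg₁]
          exact ⟨u₁, hu₁, rfl⟩
        · change φ₂ u₂ ∈ X₂
          rw [← himg₂]
          exact ⟨u₂, hu₂, rfl⟩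
      · rintro ⟨⟨u₁, u₂⟩, ⟨hu₁, hu₂⟩, rfl⟩
        have hu₁' : u₁ ∈ φ₁ '' X₁ := by rw [himg₁]; exact hu₁
        have hu₂' : u₂ ∈ φ₂ '' X₂ := by rw [himg₂]; exact hu₂
        obtain ⟨v₁, hv₁, rfl⟩ := hu₁'
        obtain ⟨v₂, hv₂, rfl⟩ := hu₂'
        exact ⟨pair v₁ v₂, ⟨(v₁, v₂), ⟨hv₁, hv₂⟩, rfl⟩, pairIso_pair φ₁ φ₂ v₁ v₂⟩
    · change pairIso φ₁ φ₂ (pair x₁ x₂) = pair y₁ y₂
      rw [pairIso_pair, hφ₁, hφ₂]
  · change dist (pair (f₁ a) (f₂ a)) (pair (f₁ b) (f₂ b)) ^ 2 = D₁ a b + D₂ a b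
    rw [dist_sq_split, pfst_pair, pfst_pair, psnd_pair, psnd_pair, hd₁, hd₂]

/-- Positive combinations. -/
theorem Realizable.sum {α ι : Type} (s : Finset ι) (c : ι → ℝ) (D : ι → α → α → ℝ)
    (hc : ∀ i ∈ s, 0 ≤ c i) (hD : ∀ i ∈ s, Realizable (D i)) :
    Realizable (fun a b => ∑ i ∈ s, c i * D i a b) := by
  classical
  induction s using Finset.induction_on with
  | empty => simpa using (Realizable.zero : Realizable (fun _ _ : α => (0 : ℝ)))
  | insert i s hi ih =>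
    have h1 := (hD i (Finset.mem_insert_self i s)).smul (hc i (Finset.mem_insert_self i s))
    have h2 := ih (fun j hj => hc j (Finset.mem_insert_of_mem hj))
      (fun j hj => hD j (Finset.mem_insert_of_mem hj))
    have h3 := h1.add h2
    have e : (fun a b => ∑ j ∈ insert i s, c j * D j a b) =
        fun a b => c i * D i a b + ∑ j ∈ s, c j * D j a b := by
      funext a b
      rw [Finset.sum_insert hi]
    rw [e]
    exact h3

end Vale.Agent.Lib.P058.RatDep
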